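import Vale.Agent.P330.PureDefs

namespace Vale.Agent.P330.S7

open Vale.Agent.P330

variable {Γ : Type}

/-- The ten local nodes of the gadget of a gate: positive and negative rails of the two output
ports, two difference nodes, two constant nodes and two reflected difference nodes. -/
inductive Loc : Type
  | p0 | n0 | p1 | n1 | sp | sm | k1 | k2 | b1 | b2
  deriving DecidableEq

instance : Fintype Loc where
  elems := {Loc.p0, Loc.n0, Loc.p1, Loc.n1, Loc.sp, Loc.sm, Loc.k1, Loc.k2, Loc.b1, Loc.b2}
  complete := by intro x; cases x <;> simp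

/-- Positive rail of a Pure-Circuit node. -/
def railP (u : Γ × Bool) : Γ × Loc := (u.1, if u.2 = true then Loc.p1 else Loc.p0)

/-- Negative rail of a Pure-Circuit node. -/
def railN (u : Γ × Bool) : Γ × Loc := (u.1, if u.2 = true then Loc.n1 else Loc.n0)

/-- The gate attached to the local node `l` of the gadget of `g`. -/
def gadgetGate (C : PureCircuit Γ) (g : Γ) (l : Loc) : Option (Gate (Γ × Loc)) :=
  if C.isPurify g = true then
    match l with
    | .sp => some (.sub (railP (C.in1 g)) (railN (C.in1 g)))
    | .sm => some (.sub (railN (C.in1 g)) (railP (C.in1 g)))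
    | .k1 => some (.const (5/7))
    | .k2 => some (.const (5/7))
    | .b1 => some (.sub (g, Loc.k1) (g, Loc.sp))
    | .b2 => some (.sub (g, Loc.k2) (g, Loc.sm))
    | .p0 => some (.less (g, Loc.b1) (g, Loc.sp))
    | .n0 => some (.neg (g, Loc.p0))
    | .p1 => some (.less (g, Loc.sm) (g, Loc.b2))
    | .n1 => some (.neg (g, Loc.p1))
  else
    match l with
    | .p0 => some (.and (railN (C.in1 g)) (railN (C.in2 g)))
    | .n0 => some (.or (railP (C.in1 g)) (railP (C.in2 g)))
    | _ => none

/-- The generalized circuit on the node set `Γ × Loc` obtained by replacing every gate of `C`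
by its gadget (2 gates for NOR, 10 gates for PURIFY). -/
def toGCircuit [Nonempty Γ] (C : PureCircuit Γ) : GCircuit (Γ × Loc) where
  gate := fun z => gadgetGate C z.1 z.2
  param_ok := by
    intro z g hg
    obtain ⟨γ, l⟩ := z
    simp only [gadgetGate] at hg
    split_ifs at hg <;> cases l <;> simp at hg <;> subst hg <;> simp [Gate.ParamOK] <;> norm_num
  nonempty := by
    obtain ⟨γ⟩ := ‹Nonempty Γ›
    refine ⟨(γ, Loc.p0), ?_⟩
    simp only [gadgetGate]
    split_ifs <;> simp

/-- Reading a Pure-Circuit assignment off an assignment of the generalized circuit: a node is `1`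
if its positive rail is at least `1 - ε` and its negative rail at most `ε`, `0` in the mirrored
case, and `⊥` otherwise. -/
def decode (ε : ℚ) (x : Γ × Loc → ℚ) (u : Γ × Bool) : Option Bool :=
  if 1 - ε ≤ x (railP u) ∧ x (railN u) ≤ ε then some true
  else if x (railP u) ≤ ε ∧ 1 - ε ≤ x (railN u) then some false
  else none

end Vale.Agent.P330.S7
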