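import Vale.Agent.P330.S7.Defs

namespace Vale.Agent.P330.S7

open Vale.Agent.P330

variable {Γ : Type}

theorem decode_true {ε : ℚ} {x : Γ × Loc → ℚ} {u : Γ × Bool}
    (h1 : 1 - ε ≤ x (railP u)) (h2 : x (railN u) ≤ ε) : decode ε x u = some true := by
  unfold decode; rw [if_pos ⟨h1, h2⟩]

theorem decode_false {ε : ℚ} (hε : ε < 1/2) {x : Γ × Loc → ℚ} {u : Γ × Bool}
    (h1 : x (railP u) ≤ ε) (h2 : 1 - ε ≤ x (railN u)) : decode ε x u = some false := by
  unfold decode
  rw [if_neg (by rintro ⟨h, _⟩; linarith), if_pos ⟨h1, h2⟩]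

theorem of_decode_true {ε : ℚ} {x : Γ × Loc → ℚ} {u : Γ × Bool}
    (h : decode ε x u = some true) : 1 - ε ≤ x (railP u) ∧ x (railN u) ≤ ε := by
  unfold decode at h
  split_ifs at h with h1 h2
  · exact h1
  · simp at h

theorem of_decode_false {ε : ℚ} {x : Γ × Loc → ℚ} {u : Γ × Bool}
    (h : decode ε x u = some false) : x (railP u) ≤ ε ∧ 1 - ε ≤ x (railN u) := by
  unfold decode at h
  split_ifs at h with h1 h2
  · simp at h
  · exact h2

theorem gadget_sound (C : PureCircuit Γ) (ε : ℚ) (h0 : 0 < ε) (h8 : ε < 1/7) (x : Γ × Loc → ℚ)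
    (g : Γ) (hall : ∀ l gt, gadgetGate C g l = some gt → gt.Sat ε x (g, l)) :
    C.SatAt (decode ε x) g := by
  have hhalf : ε < 1/2 := by linarith
  have rP0 : railP (g, false) = (g, Loc.p0) := by simp [railP]
  have rN0 : railN (g, false) = (g, Loc.n0) := by simp [railN]
  have rP1 : railP (g, true) = (g, Loc.p1) := by simp [railP]
  have rN1 : railN (g, true) = (g, Loc.n1) := by simp [railN]
  unfold PureCircuit.SatAt
  by_cases hp : C.isPurify g = true
  · rw [if_pos hp]
    have gsp := hall Loc.sp (.sub (railP (C.in1 g)) (railN (C.in1 g))) (by simp [gadgetGate, hp])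
    have gsm := hall Loc.sm (.sub (railN (C.in1 g)) (railP (C.in1 g))) (by simp [gadgetGate, hp])
    have gk1 := hall Loc.k1 (.const (5/7)) (by simp [gadgetGate, hp])
    have gk2 := hall Loc.k2 (.const (5/7)) (by simp [gadgetGate, hp])
    have gb1 := hall Loc.b1 (.sub (g, Loc.k1) (g, Loc.sp)) (by simp [gadgetGate, hp])
    have gb2 := hall Loc.b2 (.sub (g, Loc.k2) (g, Loc.sm)) (by simp [gadgetGate, hp])
    have gp0 := hall Loc.p0 (.less (g, Loc.b1) (g, Loc.sp)) (by simp [gadgetGate, hp])
    have gn0 := hall Loc.n0 (.neg (g, Loc.p0)) (by simp [gadgetGate, hp])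
    have gp1 := hall Loc.p1 (.less (g, Loc.sm) (g, Loc.b2)) (by simp [gadgetGate, hp])
    have gn1 := hall Loc.n1 (.neg (g, Loc.p1)) (by simp [gadgetGate, hp])
    simp only [Gate.Sat] at gsp gsm gk1 gk2 gb1 gb2 gp0 gn0 gp1 gn1
    rw [abs_le] at gsp gsm gk1 gk2 gb1 gb2
    set p := x (railP (C.in1 g)) with hpdef
    set n := x (railN (C.in1 g)) with hndef
    have low0 : p ≤ n → decode ε x (g, false) = some false := by
      intro hle
      have hm : max (p - n) 0 = 0 := max_eq_right (by linarith)
      rw [hm] at gsp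
      have hb : x (g, Loc.k1) - x (g, Loc.sp) ≤ max (x (g, Loc.k1) - x (g, Loc.sp)) 0 :=
        le_max_left _ _
      have a1 : x (g, Loc.p0) ≤ ε := gp0.2 (by linarith [gsp.2, gk1.1, gb1.1])
      have a2 : 1 - ε ≤ x (g, Loc.n0) := gn0.1 a1
      exact decode_false hhalf (by rw [rP0]; exact a1) (by rw [rN0]; exact a2)
    have high1 : n ≤ p → decode ε x (g, true) = some true := by
      intro hle
      have hm : max (n - p) 0 = 0 := max_eq_right (by linarith)
      rw [hm] at gsm
      have hb : x (g, Loc.k2) - x (g, Loc.sm) ≤ max (x (g, Loc.k2) - x (g, Loc.sm)) 0 :=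
        le_max_left _ _
      have a1 : 1 - ε ≤ x (g, Loc.p1) := gp1.1 (by linarith [gsm.2, gk2.1, gb2.1])
      have a2 : x (g, Loc.n1) ≤ ε := gn1.2 a1
      exact decode_true (by rw [rP1]; exact a1) (by rw [rN1]; exact a2)
    refine ⟨?_, ?_⟩
    · rcases le_total p n with hle | hle
      · left; rw [low0 hle]; simp
      · right; rw [high1 hle]; simp
    · intro hne
      rcases hd : decode ε x (C.in1 g) with _ | b
      · exact absurd hd hne
      · cases b with
        | true =>
          obtain ⟨b1, b2⟩ := of_decode_true hd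
          refine ⟨?_, high1 (by linarith)⟩
          have hm : p - n ≤ max (p - n) 0 := le_max_left _ _
          have hb : max (x (g, Loc.k1) - x (g, Loc.sp)) 0 ≤ max (4 * ε - 2 / 7) 0 :=
            max_le_max (by linarith [gsp.1, gk1.2]) le_rfl
          have hb' : max (4 * ε - 2 / 7) 0 < 1 - 5 * ε := max_lt (by linarith) (by linarith)
          have a1 : 1 - ε ≤ x (g, Loc.p0) := gp0.1 (by linarith [gsp.1, gb1.2])
          have a2 : x (g, Loc.n0) ≤ ε := gn0.2 a1
          exact decode_true (by rw [rP0]; exact a1) (by rw [rN0]; exact a2)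
        | false =>
          obtain ⟨b1, b2⟩ := of_decode_false hd
          refine ⟨low0 (by linarith), ?_⟩
          have hm : n - p ≤ max (n - p) 0 := le_max_left _ _
          have hb : max (x (g, Loc.k2) - x (g, Loc.sm)) 0 ≤ max (4 * ε - 2 / 7) 0 :=
            max_le_max (by linarith [gsm.1, gk2.2]) le_rfl
          have hb' : max (4 * ε - 2 / 7) 0 < 1 - 5 * ε := max_lt (by linarith) (by linarith)
          have a1 : x (g, Loc.p1) ≤ ε := gp1.2 (by linarith [gsm.1, gb2.2])
          have a2 : 1 - ε ≤ x (g, Loc.n1) := gn1.1 a1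
          exact decode_false hhalf (by rw [rP1]; exact a1) (by rw [rN1]; exact a2)
  · rw [if_neg hp]
    have gp0 := hall Loc.p0 (.and (railN (C.in1 g)) (railN (C.in2 g))) (by simp [gadgetGate, hp])
    have gn0 := hall Loc.n0 (.or (railP (C.in1 g)) (railP (C.in2 g))) (by simp [gadgetGate, hp])
    simp only [Gate.Sat] at gp0 gn0
    refine ⟨?_, ?_⟩
    · rintro ⟨d1, d2⟩
      obtain ⟨a1, a2⟩ := of_decode_false d1
      obtain ⟨b1, b2⟩ := of_decode_false d2
      exact decode_true (by rw [rP0]; exact gp0.1 ⟨a2, b2⟩) (by rw [rN0]; exact gn0.2 ⟨a1, b1⟩)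
    · rintro (d | d)
      · obtain ⟨a1, a2⟩ := of_decode_true d
        exact decode_false hhalf (by rw [rP0]; exact gp0.2 (Or.inl a2))
          (by rw [rN0]; exact gn0.1 (Or.inl a1))
      · obtain ⟨a1, a2⟩ := of_decode_true d
        exact decode_false hhalf (by rw [rP0]; exact gp0.2 (Or.inr a2))
          (by rw [rN0]; exact gn0.1 (Or.inr a1))

theorem numGates_le [Fintype Γ] [Nonempty Γ] (C : PureCircuit Γ) :
    (toGCircuit C).numGates ≤ 10 * Fintype.card Γ := by
  classical
  unfold GCircuit.numGates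
  calc _ ≤ (Finset.univ : Finset (Γ × Loc)).card := Finset.card_le_card (Finset.filter_subset _ _)
    _ = Fintype.card Γ * 10 := by
        rw [Finset.card_univ, Fintype.card_prod]; rfl
    _ = _ := by ring

theorem unsat_le [Fintype Γ] [Nonempty Γ] (C : PureCircuit Γ) (ε : ℚ) (h0 : 0 < ε) (h8 : ε < 1/7)
    (x : Γ × Loc → ℚ) :
    Fintype.card Γ + (toGCircuit C).numSat ε x ≤ C.numSat (decode ε x) + (toGCircuit C).numGates := by
  classical
  -- violated gates of the generalized circuit
  set U' : Finset (Γ × Loc) := Finset.univ.filter fun z =>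
    (toGCircuit C).gate z ≠ none ∧ ¬ (toGCircuit C).SatAt ε x z with hU'
  set U : Finset Γ := Finset.univ.filter fun g => ¬ C.SatAt (decode ε x) g with hU
  have hex : ∀ g ∈ U, ∃ l : Loc, (g, l) ∈ U' := by
    intro g hg
    simp only [hU, Finset.mem_filter, Finset.mem_univ, true_and] at hg
    by_contra hcon
    have hcon : ∀ l : Loc, (g, l) ∉ U' := fun l hl => hcon ⟨l, hl⟩
    apply hg
    apply gadget_sound C ε h0 h8 x g
    intro l gt hgt
    have := hcon l
    simp only [hU', Finset.mem_filter, Finset.mem_univ, true_and, not_and, not_not] at this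
    have h2 := this (by
      show gadgetGate C g l ≠ none
      rw [hgt]; simp)
    obtain ⟨gt', hgt', hs⟩ := h2
    have : gadgetGate C g l = some gt' := hgt'
    rw [hgt] at this
    cases this
    exact hs
  have : Nonempty Loc := ⟨Loc.p0⟩
  choose! f hf using hex
  have hcardU : U.card ≤ U'.card := by
    apply Finset.card_le_card_of_injOn (fun g => (g, f g))
    · intro g hg; exact hf g hg
    · intro a _ b _ hab
      exact (Prod.mk.inj hab).1
  have h1 : U.card + C.numSat (decode ε x) = Fintype.card Γ := by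
    unfold PureCircuit.numSat
    rw [hU, add_comm, ← Finset.card_univ]
    exact Finset.card_filter_add_card_filter_not _
  have h2 : U'.card + (toGCircuit C).numSat ε x = (toGCircuit C).numGates := by
    unfold GCircuit.numSat GCircuit.numGates
    rw [hU', ← Finset.card_union_of_disjoint]
    · congr 1
      ext z
      simp only [Finset.mem_union, Finset.mem_filter, Finset.mem_univ, true_and]
      constructor
      · rintro (h | h)
        · exact h.1
        · obtain ⟨gt, hgt, _⟩ := h
          rw [hgt]; simp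
      · intro h
        by_cases hs : (toGCircuit C).SatAt ε x z
        · right; exact hs
        · left; exact ⟨h, hs⟩
    · rw [Finset.disjoint_filter]
      intro z _ h hs
      exact h.2 hs
  omega

end Vale.Agent.P330.S7
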